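import Vale.Agent.P078.Stm2

/-! Splitting along the algebra generated by the normalizer. -/

namespace Vale.Agent.P078

open scoped InnerProductSpace ComplexConjugate ComplexOrder
open Vale.Agent.P104 Vale.Agent.P082 ContinuousLinearMap Filter Topology

universe u

namespace EB

variable {H : Type u} [NormedAddCommGroup H] [InnerProductSpace ℂ H] [CompleteSpace H]
  {A M N : VonNeumannAlgebra H} {ξ : H}

theorem tr_nn (ht : TraceVec M ξ) {h k : H →L[ℂ] H} (hh : h ∈ M) (hk : k ∈ M) (h0 : 0 ≤ h)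
    (k0 : 0 ≤ k) : 0 ≤ (⟪ξ, (h * k) ξ⟫_ℂ).re := by
  obtain ⟨s, hs⟩ := CStarAlgebra.nonneg_iff_eq_star_mul_self.1
    (show (0 : Alg M) ≤ ⟨h, hh⟩ from h0)
  have hs' : h = star s.1 * s.1 := congrArg Subtype.val hs
  rw [hs', mul_assoc, ht.2.1 _ (star_mem s.2) _ (mul_mem s.2 hk)]
  exact R.re_nonneg (star_right_conjugate_nonneg k0 s.1)

theorem clampU (hN : ∀ z ∈ N, z ∈ M) (ht : TraceVec M ξ) {x b : H →L[ℂ] H} (hx : x ∈ M)
    (x1 : x ≤ 1) (hb : b ∈ N) (hs : IsSelfAdjoint b) :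
    ∃ g ∈ N, IsSelfAdjoint g ∧ g ≤ 1 ∧ (-1 ≤ b → -1 ≤ g) ∧ ‖(x - g) ξ‖ ≤ ‖(x - b) ξ‖ := by
  obtain ⟨e, eN, pe, c, h0, h1⟩ := spec H N (b - 1) (sub_mem hb (one_mem _))
    (hs.sub (IsSelfAdjoint.one _))
  have ee := pe.isIdempotentElem.eq
  have cb : b * e = e * b := by
    rw [mul_sub, sub_mul, mul_one, one_mul] at c
    exact (sub_left_injective c).symm
  have eb : e * (e * b) = e * b := by rw [← mul_assoc, ee]
  have fN : 1 - e ∈ N := sub_mem (one_mem _) eN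
  have hN' : e * (b - 1) * e ∈ N := mul_mem (mul_mem eN (sub_mem hb (one_mem _))) eN
  have fs := pe.one_sub.isSelfAdjoint
  refine ⟨e + (1 - e) * b * (1 - e), add_mem eN (mul_mem (mul_mem fN hb) fN),
    pe.isSelfAdjoint.add (by simpa only [fs.star_eq] using hs.conjugate (1 - e)), ?_,
    fun h => ?_, ?_⟩
  · rw [← sub_nonneg]
    convert neg_nonneg.2 h1 using 1
    simp only [mul_sub, sub_mul, one_mul, mul_one, mul_assoc, cb, eb, ee]
    abel
  · have := add_nonneg (add_nonneg pe.nonneg pe.nonneg)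
      (star_left_conjugate_nonneg (sub_nonneg.2 h) (1 - e))
    rw [← sub_nonneg]
    convert this using 1
    simp only [fs.star_eq, mul_sub, sub_mul, one_mul, mul_one, mul_assoc, cb, eb, ee, mul_neg,
      neg_mul]
    abel
  · set g := e + (1 - e) * b * (1 - e) with hg
    set h := e * (b - 1) * e with hh
    have e1 : x - b = x - g - h := by
      simp only [hg, hh, mul_sub, sub_mul, one_mul, mul_one, mul_assoc, cb, eb, ee]
      abel
    have e2 : h * (x - g) = -(h * (1 - x)) := by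
      have : h * g = h := by
        have k : e * (1 - e) = 0 := by rw [mul_sub, mul_one, ee, sub_self]
        rw [hg, hh, mul_add, mul_assoc _ e e, ee, mul_assoc _ e, ← mul_assoc e, ← mul_assoc e, k]
        simp
      rw [mul_sub, mul_sub, this, mul_one, neg_sub]
    have e3 := tr_nn ht (hN _ hN') (sub_mem (one_mem _) hx) h0 (sub_nonneg.2 x1)
    have e4 : (⟪(x - g) ξ, h ξ⟫_ℂ).re ≤ 0 := by
      rw [← inner_conj_symm, Complex.conj_re, ← (IsSelfAdjoint.of_nonneg h0).star_eq,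
        inner_star_left, ← mul_apply_eq_comp, e2, neg_apply, inner_neg_right, Complex.neg_re]
      linarith
    rw [e1, sub_apply (x - g) h]
    refine le_of_sq_le (norm_nonneg _) ?_
    rw [@norm_sub_sq ℂ]
    simp only [RCLike.re_to_complex]
    nlinarith [sq_nonneg ‖h ξ‖]

theorem clamp (hN : ∀ z ∈ N, z ∈ M) (ht : TraceVec M ξ) {x b : H →L[ℂ] H} (hx : x ∈ M)
    (xs : IsSelfAdjoint x) (x1 : ‖x‖ ≤ 1) (hb : b ∈ N) (hs : IsSelfAdjoint b) :
    ∃ g ∈ N, ‖g‖ ≤ 1 ∧ ‖(x - g) ξ‖ ≤ ‖(x - b) ξ‖ := by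
  have k : ∀ x : H →L[ℂ] H, IsSelfAdjoint x → ‖x‖ ≤ 1 → x ≤ 1 := fun x xs x1 =>
    xs.le_algebraMap_norm_self.trans (by
      rw [← map_one (algebraMap ℝ (H →L[ℂ] H))]
      exact algebraMap_mono _ x1)
  obtain ⟨g, gN, gs, g1, -, g2⟩ := clampU hN ht hx (k x xs x1) hb hs
  obtain ⟨g', gN', gs', g1', g3, g2'⟩ := clampU hN ht (neg_mem hx)
    (k _ xs.neg (by rwa [norm_neg])) (neg_mem gN) gs.neg
  refine ⟨-g', neg_mem gN', ?_, ?_⟩
  · rw [norm_neg]
    exact R.norm_le_of_le gs' zero_le_one (by simpa using g1')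
      (by simpa using neg_le.1 (g3 (neg_le_neg g1)))
  · rw [show -x - g' = -(x - -g') by abel, show -x - -g = -(x - g) by abel, neg_apply, neg_apply,
      norm_neg, norm_neg] at g2'
    exact g2'.trans g2

theorem cexp (hN : ∀ z ∈ N, z ∈ M) (ht : TraceVec M ξ) {x : H →L[ℂ] H} (hx : x ∈ M)
    (xs : IsSelfAdjoint x) (x1 : ‖x‖ ≤ 1) :
    ∃ z ∈ N, IsSelfAdjoint z ∧ ‖z‖ ≤ 1 ∧ ∀ b ∈ N, ⟪b ξ, (x - z) ξ⟫_ℂ = 0 := by
  let K : Set (H →L[ℂ] H) := {z | z ∈ N ∧ ‖z‖ ≤ 1}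
  have hne : ((fun z : H →L[ℂ] H => ‖(x - z) ξ‖) '' K).Nonempty :=
    Set.Nonempty.image _ ⟨0, zero_mem _, by simp⟩
  have hbd : BddBelow ((fun z : H →L[ℂ] H => ‖(x - z) ξ‖) '' K) :=
    ⟨0, by rintro _ ⟨z, -, rfl⟩; exact norm_nonneg _⟩
  obtain ⟨r, -, hr, hrK⟩ := exists_seq_tendsto_sInf hne hbd
  set m := sInf ((fun z : H →L[ℂ] H => ‖(x - z) ξ‖) '' K)
  have hm : ∀ z ∈ K, m ≤ ‖(x - z) ξ‖ := fun z hz => csInf_le hbd ⟨z, hz, rfl⟩
  choose v hv hvr using hrK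
  let v' : ℕ → Alg N := fun n => ⟨v n, (hv n).1⟩
  have hb : ∀ n, ‖v' n‖ ≤ 1 := fun n => (hv n).2
  obtain ⟨w, hw⟩ : ∃ w, w = wlim (hyperfilter ℕ) v' := ⟨_, rfl⟩
  have hs : ∀ η, Tendsto (fun n => ⟪η, (x - v n) ξ⟫_ℂ) (hyperfilter ℕ) (𝓝 ⟪η, (x - w.1) ξ⟫_ℂ) :=
    fun η => by
      simp only [sub_apply, inner_sub_right]
      exact tendsto_const_nhds.sub (hw ▸ wlim_spec hb ξ η)
  have w1 : ‖w.1‖ ≤ 1 := hw ▸ wlim_norm_le hb
  have hzm : ‖(x - w.1) ξ‖ ≤ m := by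
    have h1 := (hs ((x - w.1) ξ)).norm
    have h2 : Tendsto (fun n => ‖(x - w.1) ξ‖ * r n) (hyperfilter ℕ) (𝓝 (‖(x - w.1) ξ‖ * m)) :=
      (hr.mono_left Nat.hyperfilter_le_atTop).const_mul _
    have h3 := le_of_tendsto_of_tendsto' h1 h2 fun n => by
      rw [← hvr n]; exact norm_inner_le_norm _ _
    rw [inner_self_eq_norm_sq_to_K, norm_pow, RCLike.norm_ofReal, abs_norm, sq] at h3
    rcases (norm_nonneg ((x - w.1) ξ)).eq_or_lt with h | h
    · rw [← h]; exact le_csInf hne (by rintro _ ⟨z, -, rfl⟩; exact norm_nonneg _)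
    · exact le_of_mul_le_mul_left h3 h
  have b3 := P096.TV.star_eq (Q := M) ht.2.1 (sub_mem hx (hN _ w.2))
  rw [star_sub, xs.star_eq] at b3
  obtain ⟨z, hz⟩ : ∃ z, z = (2⁻¹ : ℂ) • (w.1 + star w.1) := ⟨_, rfl⟩
  have zN : z ∈ N := hz ▸ vn_smul_mem _ (add_mem w.2 (star_mem w.2))
  have zs : IsSelfAdjoint z := hz ▸ R.half_sa _
  have z2 : ‖(x - z) ξ‖ ≤ m := by
    rw [show (x - z) ξ = (2⁻¹ : ℂ) • ((x - w.1) ξ + (x - star w.1) ξ) by
      simp only [hz, sub_apply, smul_apply, add_apply]; module, norm_smul, norm_inv,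
      Complex.norm_ofNat]
    linarith [norm_add_le ((x - w.1) ξ) ((x - star w.1) ξ)]
  have k1 : ∀ c ∈ N, IsSelfAdjoint c → (⟪(x - z) ξ, c ξ⟫_ℂ).re = 0 := fun c cN cs => by
    have k : ∀ t : ℝ, 0 ≤ -2 * t * (⟪(x - z) ξ, c ξ⟫_ℂ).re + t ^ 2 * ‖c ξ‖ ^ 2 := fun t => by
      obtain ⟨g, gN, g1, g2⟩ := clamp hN ht hx xs x1 (add_mem zN (vn_smul_mem (t : ℂ) cN))
        (zs.add ((show IsSelfAdjoint (t : ℂ) from Complex.conj_ofReal _).smul cs))
      have := pow_le_pow_left₀ (norm_nonneg _) ((z2.trans (hm g ⟨gN, g1⟩)).trans g2) 2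
      rw [← sub_sub, sub_apply (x - z), @norm_sub_sq ℂ, smul_apply, inner_smul_right, norm_smul,
        Complex.norm_real, mul_pow, Real.norm_eq_abs, sq_abs] at this
      simp only [RCLike.re_to_complex, Complex.re_ofReal_mul] at this
      linarith
    set a := (⟪(x - z) ξ, c ξ⟫_ℂ).re
    set B := ‖c ξ‖ ^ 2
    have B0 : 0 ≤ B := by positivity
    have := k (a / (B + 1))
    rw [show -2 * (a / (B + 1)) * a + (a / (B + 1)) ^ 2 * B = -(a ^ 2 * (B + 2)) / (B + 1) ^ 2 by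
      field_simp; ring, le_div_iff₀ (by positivity)] at this
    exact pow_eq_zero_iff two_ne_zero |>.1 (le_antisymm (by nlinarith [sq_nonneg a]) (sq_nonneg a))
  have ys := xs.sub zs
  have yM := sub_mem hx (hN z zN)
  have k2 : ∀ b ∈ N, (⟪(x - z) ξ, b ξ⟫_ℂ).re = 0 := fun b bN => by
    have e1 : (⟪(x - z) ξ, star b ξ⟫_ℂ).re = (⟪(x - z) ξ, b ξ⟫_ℂ).re := by
      rw [← inner_conj_symm, Complex.conj_re, inner_star_left, ← mul_apply_eq_comp,
        ht.2.1 _ (hN b bN) _ yM, mul_apply_eq_comp, ← inner_star_left, ys.star_eq]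
    have := k1 _ (add_mem bN (star_mem bN)) (by simp [IsSelfAdjoint, add_comm])
    rw [add_apply, inner_add_right, Complex.add_re, e1] at this
    linarith
  refine ⟨z, zN, zs, hz ▸ (R.half_norm _).trans w1, fun b bN => ?_⟩
  have := k2 _ (vn_smul_mem Complex.I bN)
  rw [smul_apply, inner_smul_right, Complex.I_mul_re, neg_eq_zero] at this
  rw [← inner_conj_symm, show ⟪(x - z) ξ, b ξ⟫_ℂ = 0 from Complex.ext (k2 b bN) this]
  simp

end EB

theorem eb : EBStmt.{u} := by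
  intro H _ _ _ A M ξ _ ht x hx xs x1 η hη
  let N0 : VonNeumannAlgebra H := ⟨StarSubalgebra.centralizer ℂ {u | Normalizes A M u}, by simp⟩
  have m0 : ∀ T, T ∈ N0 ↔ ∀ u, Normalizes A M u → u * T = T * u := fun T => by
    change T ∈ StarSubalgebra.centralizer ℂ {u | Normalizes A M u} ↔ _
    rw [StarSubalgebra.mem_centralizer_iff]
    exact ⟨fun h u hu => (h u hu).1, fun h u hu => ⟨h u hu, h _ ⟨star_mem hu.1,
      Unitary.star_mem hu.2.1, by simpa using hu.2.2.2, by simpa using hu.2.2.1⟩⟩⟩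
  have hN : ∀ z ∈ N0.commutant, z ∈ M := fun z hz => by
    rw [← M.commutant_commutant]
    exact VonNeumannAlgebra.mem_commutant_iff.2 fun T hT => VonNeumannAlgebra.mem_commutant_iff.1
      hz T ((m0 T).2 fun u hu => VonNeumannAlgebra.mem_commutant_iff.1 hT u hu.1)
  have up : ∀ u, Normalizes A M u → Normalizes A N0.commutant u := fun u hu =>
    ⟨VonNeumannAlgebra.mem_commutant_iff.2 fun T hT => ((m0 T).1 hT u hu).symm, hu.2⟩
  obtain ⟨z, zN, zs, z1, hz⟩ := EB.cexp hN ht hx xs x1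
  obtain ⟨y, y0, ys, y1, y2⟩ := R.kap (A := A) (M := N0.commutant) (ξ := ξ)
    (fun T hT w hw => VonNeumannAlgebra.mem_commutant_iff.1 hw T
      ((m0 T).2 fun u hu => (hT u (up u hu)).symm))
    ⟨ht.1, fun a ha b hb => ht.2.1 a (hN a ha) b (hN b hb), fun a ha => ht.2.2 a (hN a ha)⟩
    zN zs z1 (show 0 < η / 3 by positivity)
  refine ⟨y, Submodule.span_mono (fun u (hu : Normalizes A N0.commutant u) =>
    (⟨hN u hu.1, hu.2⟩ : Normalizes A M u)) y0, x - z, sub_mem hx (hN z zN), ys, xs.sub zs, y1,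
    (norm_sub_le _ _).trans (by linarith), fun b hb => hz b (R.nsp_le (A := A)
      (Submodule.span_mono (fun u hu => up u hu) hb)), ?_⟩
  rw [show x - y - (x - z) = z - y by abel]
  linarith

end Vale.Agent.P078
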