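import Vale.Agent.P078.Cut
import Vale.Agent.P078.WM

/-! The expectation and small blocks when the abelian algebra lies in the centralizer. -/

namespace Vale.Agent.P078

open scoped InnerProductSpace ComplexConjugate ComplexOrder
open Vale.Agent.P104 Vale.Agent.P082 Finset Filter Topology

universe u

variable {H : Type u} [NormedAddCommGroup H] [InnerProductSpace ℂ H] [CompleteSpace H]
  {A M : VonNeumannAlgebra H} {ξ : H}

/-- `ξ` is a separating unit vector whose vector state has `A` in its centralizer. -/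
def CV (A M : VonNeumannAlgebra H) (ξ : H) : Prop :=
  ‖ξ‖ = 1 ∧ (∀ a ∈ A, ∀ x ∈ M, ⟪ξ, (a * x) ξ⟫_ℂ = ⟪ξ, (x * a) ξ⟫_ℂ) ∧ ∀ x ∈ M, x ξ = 0 → x = 0

theorem CV.l (ht : CV A M ξ) {a x : H →L[ℂ] H} (ha : a ∈ A) (hx : x ∈ M) :
    ⟪ξ, (a * x) ξ⟫_ℂ = ⟪ξ, (x * a) ξ⟫_ℂ := ht.2.1 a ha x hx

theorem CV.r (ht : CV A M ξ) {a x : H →L[ℂ] H} (hx : x ∈ M) (ha : a ∈ A) :
    ⟪ξ, (x * a) ξ⟫_ℂ = ⟪ξ, (a * x) ξ⟫_ℂ := (ht.2.1 a ha x hx).symm

namespace NT

open R W CutA ContinuousLinearMap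

variable {r s : ℕ} {p : Fin r → H →L[ℂ] H} {p' : Fin s → H →L[ℂ] H} {a b y z t : H →L[ℂ] H}
  {T : (H →L[ℂ] H) → H →L[ℂ] H}

theorem ce (hA : IsMasa A M) (hξ : CV A M ξ) (y : H →L[ℂ] H) (hy : y ∈ M) :
    ∃ a ∈ A, ‖a‖ ≤ ‖y‖ ∧ ∀ b ∈ A, ⟪ξ, (b * a) ξ⟫_ℂ = ⟪ξ, (b * y) ξ⟫_ℂ := by
  let K : Set (H →L[ℂ] H) :=
    {z | z ∈ M ∧ ‖z‖ ≤ ‖y‖ ∧ ∀ b ∈ A, ⟪ξ, (b * z) ξ⟫_ℂ = ⟪ξ, (b * y) ξ⟫_ℂ}
  have hyK : y ∈ K := ⟨hy, le_rfl, fun _ _ => rfl⟩
  have hbd : BddBelow ((fun z : H →L[ℂ] H => ‖z ξ‖) '' K) :=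
    ⟨0, by rintro _ ⟨z, -, rfl⟩; exact norm_nonneg _⟩
  obtain ⟨r, -, hr, hrK⟩ := exists_seq_tendsto_sInf (Set.Nonempty.image _ ⟨y, hyK⟩) hbd
  set m := sInf ((fun z : H →L[ℂ] H => ‖z ξ‖) '' K)
  have hm : ∀ z ∈ K, m ≤ ‖z ξ‖ := fun z hz => csInf_le hbd ⟨z, hz, rfl⟩
  choose v hv hvr using hrK
  let v' : ℕ → P082.Alg M := fun n => ⟨v n, (hv n).1⟩
  have hb : ∀ n, ‖v' n‖ ≤ ‖y‖ := fun n => (hv n).2.1
  obtain ⟨z, hzd⟩ : ∃ z, z = P082.wlim (hyperfilter ℕ) v' := ⟨_, rfl⟩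
  have hs : ∀ η, Tendsto (fun n => ⟪η, v n ξ⟫_ℂ) (hyperfilter ℕ) (𝓝 ⟪η, z.1 ξ⟫_ℂ) := fun η =>
    hzd ▸ P082.wlim_spec hb ξ η
  have hzK : z.1 ∈ K := by
    refine ⟨z.2, hzd ▸ P082.wlim_norm_le hb, fun b hb => ?_⟩
    have h1 := hs (star b ξ)
    simp only [inner_star_left] at h1
    exact tendsto_nhds_unique h1 (tendsto_const_nhds.congr fun n => ((hv n).2.2 b hb).symm)
  have hzm : ‖z.1 ξ‖ ≤ m := by
    have h1 := (hs (z.1 ξ)).norm
    have h2 : Tendsto (fun n => ‖z.1 ξ‖ * r n) (hyperfilter ℕ) (𝓝 (‖z.1 ξ‖ * m)) :=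
      (hr.mono_left Nat.hyperfilter_le_atTop).const_mul _
    have h3 := le_of_tendsto_of_tendsto' h1 h2 fun n => by
      rw [← hvr n]; exact norm_inner_le_norm _ _
    rw [inner_self_eq_norm_sq_to_K, norm_pow, RCLike.norm_ofReal, abs_norm, sq] at h3
    rcases (norm_nonneg (z.1 ξ)).eq_or_lt with h | h
    · rw [← h]; exact le_csInf (Set.Nonempty.image _ ⟨y, hyK⟩) (by rintro _ ⟨z, -, rfl⟩; exact norm_nonneg _)
    · exact le_of_mul_le_mul_left h3 h
  have huniq : ∀ z' ∈ K, ‖z' ξ‖ = ‖z.1 ξ‖ → z' = z.1 := by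
    intro z' hz' he
    have hmid : (2⁻¹ : ℂ) • (z' + z.1) ∈ K := by
      refine ⟨vn_smul_mem _ (add_mem hz'.1 hzK.1), ?_, fun b hb => ?_⟩
      · rw [norm_smul]
        have := norm_add_le z' z.1
        have a1 := hz'.2.1
        have a2 := hzK.2.1
        simp only [norm_inv, Complex.norm_ofNat]
        linarith
      · rw [mul_smul_comm, mul_add, smul_apply, add_apply, inner_smul_right, inner_add_right,
          hz'.2.2 b hb, hzK.2.2 b hb]
        ring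
    have h1 := hm _ hmid
    rw [smul_apply, add_apply, norm_smul] at h1
    simp only [norm_inv, Complex.norm_ofNat] at h1
    have h2 := parallelogram_law_with_norm ℂ (z' ξ) (z.1 ξ)
    rw [he] at h2
    have h3 : ‖z' ξ - z.1 ξ‖ = 0 := by
      have a1 := norm_nonneg (z.1 ξ)
      have a2 : 2 * ‖z.1 ξ‖ ≤ ‖z' ξ + z.1 ξ‖ := by linarith
      have a3 := mul_self_le_mul_self (by positivity) a2
      exact mul_self_eq_zero.1 (le_antisymm (by nlinarith) (mul_self_nonneg _))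
    exact sub_eq_zero.1 (hξ.2.2 _ (sub_mem hz'.1 hzK.1) (norm_eq_zero.1 h3))
  refine ⟨z.1, hA.mem_of_proj hzK.1 fun E hE pE => ?_, hzK.2.1, hzK.2.2⟩
  obtain ⟨s, hsd⟩ : ∃ s : H →L[ℂ] H, s = 1 - (E + E) := ⟨_, rfl⟩
  have hsA : s ∈ A := hsd ▸ sub_mem (one_mem A) (add_mem hE hE)
  have hsM := hA.1 s hsA
  have s1 : star s = s := by rw [hsd, star_sub, star_add, star_one, pE.isSelfAdjoint.star_eq]
  have s2 : s * s = 1 := by
    rw [hsd]
    simp only [mul_sub, sub_mul, mul_add, add_mul, mul_one, one_mul, pE.isIdempotentElem.eq]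
    abel
  have hsu : s ∈ unitary (H →L[ℂ] H) := ⟨by rw [s1, s2], by rw [s1, s2]⟩
  have h1 : s * z.1 * s = z.1 := by
    refine huniq _ ⟨mul_mem (mul_mem hsM hzK.1) hsM, ?_, fun b hb => ?_⟩ ?_
    · rw [CStarRing.norm_mul_mem_unitary _ hsu, CStarRing.norm_mem_unitary_mul _ hsu]
      exact hzK.2.1
    · rw [← mul_assoc, hξ.r (mul_mem (hA.1 b hb) (mul_mem hsM hzK.1)) hsA, ← mul_assoc,
        hA.2.1 s hsA b hb, mul_assoc, ← mul_assoc s, s2, one_mul, hzK.2.2 b hb]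
    · refine (sq_eq_sq₀ (norm_nonneg _) (norm_nonneg _)).1 ?_
      have e : star (s * z.1 * s) * (s * z.1 * s) = s * (star z.1 * z.1 * s) := by
        rw [star_mul, star_mul, s1]
        calc s * (star z.1 * s) * (s * z.1 * s) = s * (star z.1 * (s * s) * z.1 * s) := by
              simp only [mul_assoc]
          _ = _ := by rw [s2, mul_one]
      rw [norm_sq_apply, norm_sq_apply, e, hξ.l hsA
        (mul_mem (mul_mem (star_mem hzK.1) hzK.1) hsM), mul_assoc, s2, mul_one]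
  have h2 : s * z.1 = z.1 * s := by
    conv_lhs => rw [← h1]
    rw [← mul_assoc, ← mul_assoc, s2, one_mul]
  rw [hsd, sub_mul, mul_sub, one_mul, mul_one, sub_right_inj, add_mul, mul_add, ← two_smul ℂ,
    ← two_smul ℂ] at h2
  exact smul_right_injective _ (two_ne_zero) h2

theorem pin_tr (hA : IsMasa A M) (ht : CV A M ξ) (h : IsPartition A p) (e : z ∈ M) :
    ⟪ξ, pin p z ξ⟫_ℂ = ⟪ξ, z ξ⟫_ℂ := by
  have k : ∀ i, ⟪ξ, (p i * z * p i) ξ⟫_ℂ = ⟪ξ, (p i * z) ξ⟫_ℂ := fun i => by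
    rw [ht.r (mul_mem (hA.1 _ (h.1 i).1) e) (h.1 i).1, ← mul_assoc,
      (h.1 i).2.isIdempotentElem.eq]
  rw [pin, _root_.sum_apply, inner_sum]
  simp only [k]
  rw [← inner_sum, ← _root_.sum_apply, ← sum_mul, h.2.2, one_mul]

theorem eq_zero (ht : CV A M ξ) {x : H →L[ℂ] H} (hx : x ∈ M) (h0 : 0 ≤ x)
    (h : (⟪ξ, x ξ⟫_ℂ).re ≤ 0) : x = 0 := by
  obtain ⟨s, rfl⟩ := CStarAlgebra.nonneg_iff_eq_star_mul_self.1 h0
  rw [← norm_sq_apply] at h
  have : s ξ = 0 := by simpa using le_antisymm h (sq_nonneg _)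
  exact ht.2.2 _ hx (by rw [ContinuousLinearMap.mul_apply, this, map_zero])

theorem uniq (hA : IsMasa A M) (ht : CV A M ξ) {z a a' : H →L[ℂ] H} (h : IsE A ξ z a)
    (h' : IsE A ξ z a') : a = a' := by
  have m := sub_mem h.1 h'.1
  have e := norm_sq_apply (a - a') ξ
  rw [mul_sub, ContinuousLinearMap.sub_apply (star (a - a') * a), inner_sub_right,
    h.2 _ (star_mem m), h'.2 _ (star_mem m), sub_self, Complex.zero_re] at e
  exact sub_eq_zero.1 (ht.2.2 _ (hA.1 _ m) (by simpa using e))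

theorem cut_tr (hA : IsMasa A M) (ht : CV A M ξ) {r z : H →L[ℂ] H} (hr : r ∈ A)
    (pr : IsStarProjection r) (hz : z ∈ M) : ⟪ξ, (r * z * r) ξ⟫_ℂ = ⟪ξ, (r * z) ξ⟫_ℂ := by
  rw [ht.r (mul_mem (hA.1 _ hr) hz) hr, ← mul_assoc, pr.isIdempotentElem.eq]

theorem nonneg (hA : IsMasa A M) (ht : CV A M ξ) {z a : H →L[ℂ] H} (hz : z ∈ M) (z0 : 0 ≤ z)
    (h : IsE A ξ z a) : 0 ≤ a := by
  have hs : IsSelfAdjoint a := by
    refine uniq hA ht ⟨star_mem h.1, fun b hb => ?_⟩ h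
    have := congrArg conj (h.2 _ (star_mem hb))
    rw [inner_conj_symm, inner_conj_symm, ← inner_star_right, ← inner_star_right, star_mul,
      star_mul, star_star, z0.isSelfAdjoint.star_eq] at this
    rw [hA.2.1 _ hb _ (star_mem h.1), this, ht.r hz hb]
  obtain ⟨e, eA, pe, -, e1, e2⟩ := spec H A a h.1 hs
  have rA := sub_mem (one_mem A) eA
  have t := re_nonneg (ξ := ξ) (pe.one_sub.isSelfAdjoint.conjugate_nonneg z0)
  rw [cut_tr hA ht rA pe.one_sub hz, ← h.2 _ rA, ← cut_tr hA ht rA pe.one_sub (hA.1 _ h.1)] at t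
  have e3 := eq_zero ht (neg_mem (hA.1 _ (mul_mem (mul_mem rA h.1) rA))) (neg_nonneg.2 e2)
    (by rw [ContinuousLinearMap.neg_apply, inner_neg_right, Complex.neg_re]; linarith)
  rw [cj hA rA pe.one_sub h.1, neg_eq_zero, mul_sub, mul_one, sub_eq_zero] at e3
  rwa [cj hA eA pe h.1, ← e3] at e1

theorem pi (hA : IsMasa A M) {v e : H →L[ℂ] H} (hv : v ∈ M) (he : e ∈ A)
    (pe : IsStarProjection e) (e0 : e ≠ 0) (u1 : star v * v = e) (ve : v * e = v)
    (h1 : ∀ a ∈ A, v * a * star v ∈ A) (h2 : ∀ a ∈ A, star v * a * v ∈ A) :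
    ∃ s ∈ A, e * s ≠ 0 ∧ v * s ∈ nsp A M := by
  have fe : ∀ f ∈ A, e * f = f → f * e = f := fun f hf h => by rw [hA.2.1 f hf e he, h]
  have hqg : ∀ f ∈ A, e * f = f → v * f * star v * v = v * f := fun f hf h => by
    rw [mul_assoc, u1, mul_assoc, fe f hf h]
  have pq : ∀ f ∈ A, IsStarProjection f → e * f = f → IsStarProjection (v * f * star v) :=
    fun f hf pf h => ⟨by
      rw [IsIdempotentElem, ← mul_assoc, ← mul_assoc, hqg f hf h, mul_assoc v f f,
        pf.isIdempotentElem.eq], pf.isSelfAdjoint.conjugate v⟩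
  by_cases h : ∃ f ∈ A, IsStarProjection f ∧ e * f = f ∧ f * (1 - v * f * star v) ≠ 0
  · obtain ⟨f, hf, pf, hef, h0⟩ := h
    have hq := sub_mem (one_mem A) (h1 f hf)
    obtain ⟨s, hs⟩ : ∃ s, s = f * (1 - v * f * star v) := ⟨_, rfl⟩
    have sA : s ∈ A := hs ▸ mul_mem hf hq
    have ps : IsStarProjection s := hs ▸ hA.proj_mul hf hq pf (pq f hf pf hef).one_sub
    have es : e * s = s := by rw [hs, ← mul_assoc, hef]
    have ss := ps.isIdempotentElem.eq
    have e1 : (1 - v * f * star v) * v * f = 0 := by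
      rw [sub_mul, one_mul, hqg f hf hef, sub_mul, mul_assoc v f f, pf.isIdempotentElem.eq, sub_self]
    have e2 : s * (v * s) = 0 := by
      have : s * (v * s) = f * ((1 - v * f * star v) * v * f) * (1 - v * f * star v) := by
        rw [hs]; simp only [mul_assoc]
      rw [this, e1, mul_zero, zero_mul]
    obtain ⟨x, hx⟩ : ∃ x, x = v * s := ⟨_, rfl⟩
    have xM : x ∈ M := hx ▸ mul_mem hv (hA.1 _ sA)
    have xa : ∀ a ∈ A, x * a * x = 0 := fun a ha => by
      rw [hx, mul_assoc v, hA.2.1 s sA a ha, mul_assoc, mul_assoc, e2, mul_zero, mul_zero]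
    have xb : ∀ a ∈ A, star x * a * star x = 0 := fun a ha => by
      simpa only [star_mul, star_star, star_zero, mul_assoc] using
        congrArg star (xa _ (star_mem ha))
    have xc : ∀ a ∈ A, x * a * star x ∈ A := fun a ha => by
      simpa only [hx, star_mul, ps.isSelfAdjoint.star_eq, mul_assoc] using
        h1 _ (mul_mem (mul_mem sA ha) sA)
    have xd : ∀ a ∈ A, star x * a * x ∈ A := fun a ha => by
      simpa only [hx, star_mul, ps.isSelfAdjoint.star_eq, mul_assoc] using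
        mul_mem (mul_mem sA (h2 a ha)) sA
    have k : ∀ a ∈ A, (x + star x) * a * (x + star x) ∈ A := fun a ha => by
      rw [add_mul, add_mul, mul_add, mul_add, xa a ha, xb a ha, zero_add, add_zero]
      exact add_mem (xc a ha) (xd a ha)
    have x1 : x * x = 0 := by simpa using xa 1 (one_mem A)
    have x2 : star x * star x = 0 := by simpa using xb 1 (one_mem A)
    have x3 : star x * x = s := by
      rw [hx, star_mul, ps.isSelfAdjoint.star_eq, mul_assoc, ← mul_assoc (star v), u1, es, ss]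
    have x4 : x * s = x := by rw [hx, mul_assoc, ss]
    have x5 : s * star x = star x := by
      simpa only [star_mul, ps.isSelfAdjoint.star_eq] using congrArg star x4
    have x6 : star x * s = 0 := by rw [← x3, ← mul_assoc, x2, zero_mul]
    have j := nu hA (add_mem xM (star_mem xM)) (by simp [add_comm])
      (by simpa using k 1 (one_mem A)) (by
        rw [add_mul x (star x) (x + star x), mul_add x, mul_add (star x), x1, x2, x3, zero_add,
          add_zero, add_mul, mul_add, mul_add, x4, x6, ← mul_assoc, ← mul_assoc, x1, x3, x5]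
        simp) k
    refine ⟨s, sA, by rwa [es, hs], ?_⟩
    have := mul_mem j (le_nsp hA sA)
    rwa [add_mul, x4, x6, add_zero, hx] at this
  push Not at h
  have hee := pe.isIdempotentElem.eq
  have g1 : ∀ f ∈ A, IsStarProjection f → e * f = f → f * (v * f * star v) = f :=
    fun f hf pf hef => by
    have g1 := h f hf pf hef
    rw [mul_sub, mul_one, sub_eq_zero] at g1
    exact g1.symm
  have hc : ∀ f ∈ A, IsStarProjection f → e * f = f → e * v * f = f * v := by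
    intro f hf pf hef
    have ff := pf.isIdempotentElem.eq
    have fA' := sub_mem he hf
    have pf' : IsStarProjection (e - f) := by
      have := hA.proj_mul he (sub_mem (one_mem A) hf) pe pf.one_sub
      rwa [mul_sub, mul_one, hef] at this
    have a1 := g1 _ fA' pf' (by rw [mul_sub, hee, hef])
    have a2 : (e - f) * (v * f * star v) = 0 := by
      rw [← a1]
      calc (e - f) * (v * (e - f) * star v) * (v * f * star v)
          = (e - f) * v * ((e - f) * (star v * v) * f) * star v := by simp only [mul_assoc]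
        _ = 0 := by rw [u1, mul_assoc _ e f, hef, sub_mul e f f, hef, ff, sub_self, mul_zero,
            zero_mul]
    rw [sub_mul, g1 f hf pf hef, sub_eq_zero] at a2
    rw [mul_assoc, ← hqg f hf hef, ← mul_assoc, a2]
  have evA : e * v ∈ A := hA.mem_of_proj (mul_mem (hA.1 _ he) hv) fun E hE pE => by
    have g := hc (e * E) (mul_mem he hE) (hA.proj_mul he hE pe pE) (by rw [← mul_assoc, hee])
    rw [← mul_assoc, mul_assoc e v e, ve, hA.2.1 e he E hE, mul_assoc E] at g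
    exact g.symm
  have n1 : e * v * star (e * v) = e := by
    have := g1 e he pe hee
    rw [ve] at this
    rw [star_mul, pe.isSelfAdjoint.star_eq, ← mul_assoc, mul_assoc e v, this, hee]
  have n2 : star ((1 - e) * v) * ((1 - e) * v) = 0 := by
    rw [hA.2.1 _ evA _ (star_mem evA), star_mul, pe.isSelfAdjoint.star_eq, mul_assoc,
      ← mul_assoc e, hee] at n1
    rw [star_mul, pe.one_sub.isSelfAdjoint.star_eq, mul_assoc, ← mul_assoc (1 - e),
      pe.one_sub.isIdempotentElem.eq, sub_mul, one_mul, mul_sub, u1, n1, sub_self]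
  have n3 : v = e * v := by
    have := (CStarRing.star_mul_self_eq_zero_iff _).1 n2
    rwa [sub_mul, one_mul, sub_eq_zero] at this
  refine ⟨1, one_mem A, by rwa [mul_one], ?_⟩
  rw [mul_one, n3]
  exact le_nsp hA evA

theorem nz (hA : IsMasa A M) {z : H →L[ℂ] H} (hz : z ∈ M) (z0 : z ≠ 0)
    (h1 : ∀ a ∈ A, z * a * star z ∈ A) (h2 : ∀ a ∈ A, star z * a * z ∈ A) :
    ∃ s ∈ A, z * s ≠ 0 ∧ z * s ∈ nsp A M := by
  have kA : star z * z ∈ A := by simpa using h2 1 (one_mem A)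
  have n0 : 0 < ‖z‖ := norm_pos_iff.2 z0
  obtain ⟨c, hc⟩ : ∃ c : ℝ, c = ‖z‖ ^ 2 / 2 := ⟨_, rfl⟩
  have c0 : 0 < c := by rw [hc]; positivity
  have tA : star z * z - (c : ℂ) • 1 ∈ A := sub_mem kA (vn_smul_mem _ (one_mem A))
  obtain ⟨e, eA, pe, -, e1, e2⟩ := spec H A _ tA ((IsSelfAdjoint.star_mul_self z).sub
    ((show IsSelfAdjoint (c : ℂ) from Complex.conj_ofReal _).smul (.one _)))
  have e0 : e ≠ 0 := by
    rintro rfl
    rw [sub_zero, one_mul, mul_one, sub_nonpos, Complex.coe_smul] at e2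
    have := norm_sq_le_of_le c0.le e2
    nlinarith
  obtain ⟨h, k, -, ks, hh, hk, kh, -⟩ := exists_sqrt_inv
    (a := (⟨_, mul_mem (mul_mem eA tA) eA⟩ : Alg A)) e1 c0
  have ks' : star k.1 = k.1 := congrArg Subtype.val ks
  have hh' : h.1 * h.1 = e * (star z * z - (c : ℂ) • 1) * e + (c : ℂ) • 1 :=
    congrArg Subtype.val hh
  have hk' : h.1 * k.1 = 1 := congrArg Subtype.val hk
  have kh' : k.1 * h.1 = 1 := congrArg Subtype.val kh
  have ee := pe.isIdempotentElem.eq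
  have kA' : k.1 ∈ A := k.2
  have ek := hA.2.1 e eA _ k.2
  have u : e * (star z * z) * e = h.1 * h.1 * e := by
    rw [hh']
    simp only [mul_sub, sub_mul, add_mul, mul_smul_comm, smul_mul_assoc, mul_one, one_mul,
      mul_assoc, ee, sub_add_cancel]
  have u1 : star (z * e * k.1) * (z * e * k.1) = e := by
    calc _ = k.1 * (e * (star z * z) * e) * k.1 := by
          simp only [star_mul, ks', pe.isSelfAdjoint.star_eq, mul_assoc]
      _ = k.1 * h.1 * (h.1 * (e * k.1)) := by rw [u]; simp only [mul_assoc]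
      _ = e := by rw [kh', one_mul, ek, ← mul_assoc, hk', one_mul]
  obtain ⟨s, sA, s0, hs⟩ := pi hA (mul_mem (mul_mem hz (hA.1 _ eA)) (hA.1 _ k.2)) eA pe e0 u1
    (by rw [mul_assoc, ← ek, ← mul_assoc, mul_assoc z e e, ee]) (fun a ha => by
      simpa only [star_mul, ks', pe.isSelfAdjoint.star_eq, mul_assoc] using
        h1 _ (mul_mem (mul_mem (mul_mem (mul_mem eA k.2) ha) k.2) eA)) (fun a ha => by
      simpa only [star_mul, ks', pe.isSelfAdjoint.star_eq, mul_assoc] using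
        mul_mem (mul_mem (mul_mem (mul_mem kA' eA) (h2 a ha)) eA) kA')
  refine ⟨e * k.1 * s, mul_mem (mul_mem eA k.2) sA, fun h0 => s0 ?_, by
    simpa only [mul_assoc] using hs⟩
  rw [← u1, mul_assoc, mul_assoc z e, mul_assoc z, h0, mul_zero]

theorem exT (hA : IsMasa A M) (ht : CV A M ξ) (hy : y ∈ M) :
    ∃ T : (H →L[ℂ] H) → H →L[ℂ] H, ∀ p ∈ A, IsE A ξ (star y * p * y) (T p) := by
  have : ∀ p, ∃ t, p ∈ A → IsE A ξ (star y * p * y) t := fun p => by
    by_cases h : p ∈ A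
    · obtain ⟨a, a1, -, a2⟩ := ce hA ht _ (mul_mem (mul_mem (star_mem hy) (hA.1 p h)) hy)
      exact ⟨a, fun _ => ⟨a1, a2⟩⟩
    · exact ⟨0, fun h' => absurd h' h⟩
  choose T hT using this
  exact ⟨T, hT⟩

theorem T_sum (hA : IsMasa A M) (ht : CV A M ξ)
    (hT : ∀ p ∈ A, IsE A ξ (star y * p * y) (T p)) {ι : Type} [Fintype ι] {p : ι → H →L[ℂ] H}
    (hp : ∀ i, p i ∈ A) : T (∑ i, p i) = ∑ i, T (p i) := by
  refine uniq hA ht (hT _ (sum_mem fun i _ => hp i)) ⟨sum_mem fun i _ => (hT _ (hp i)).1,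
    fun b hb => ?_⟩
  simp only [mul_sum, sum_mul, ContinuousLinearMap.sum_apply, inner_sum, (hT _ (hp _)).2 b hb]

theorem T_add (hA : IsMasa A M) (ht : CV A M ξ)
    (hT : ∀ p ∈ A, IsE A ξ (star y * p * y) (T p)) {p q : H →L[ℂ] H} (hp : p ∈ A) (hq : q ∈ A) :
    T (p + q) = T p + T q := by
  refine uniq hA ht (hT _ (add_mem hp hq)) ⟨add_mem (hT _ hp).1 (hT _ hq).1, fun b hb => ?_⟩
  simp only [mul_add, add_mul, ContinuousLinearMap.add_apply, inner_add_right, (hT _ hp).2 b hb,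
    (hT _ hq).2 b hb]

theorem T_nn (hA : IsMasa A M) (ht : CV A M ξ) (hy : y ∈ M)
    (hT : ∀ p ∈ A, IsE A ξ (star y * p * y) (T p)) {p : H →L[ℂ] H} (hp : p ∈ A)
    (pp : IsStarProjection p) : 0 ≤ T p :=
  nonneg hA ht (mul_mem (mul_mem (star_mem hy) (hA.1 p hp)) hy)
    (star_left_conjugate_nonneg pp.nonneg y) (hT p hp)

theorem adj (hA : IsMasa A M) (ht : CV A M ξ) (h : IsPartition A p) (ha : a ∈ M)
    (hb : b ∈ M) : ⟪pin p a ξ, b ξ⟫_ℂ = ⟪a ξ, pin p b ξ⟫_ℂ := by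
  simp only [pin, _root_.sum_apply, inner_sum, sum_inner]
  refine sum_congr rfl fun i _ => ?_
  have m := hA.1 _ (h.1 i).1
  have e := (h.1 i).2.isSelfAdjoint.star_eq
  have k1 : ⟪(p i * a * p i) ξ, b ξ⟫_ℂ = ⟪ξ, (p i * (star a * p i * b)) ξ⟫_ℂ := by
    rw [← inner_star_right, star_mul, star_mul, e]
    simp only [mul_assoc]
    rfl
  have k2 : ⟪a ξ, (p i * b * p i) ξ⟫_ℂ = ⟪ξ, (star a * p i * b * p i) ξ⟫_ℂ := by
    rw [← inner_star_right]
    simp only [mul_assoc]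
    rfl
  rw [k1, k2, ht.l (h.1 i).1 (mul_mem (mul_mem (star_mem ha) m) hb)]

theorem pyth (hA : IsMasa A M) (ht : CV A M ξ) (h : IsPartition A p) (ha : a ∈ M) :
    ‖a ξ‖ ^ 2 = ‖pin p a ξ‖ ^ 2 + ‖(a - pin p a) ξ‖ ^ 2 := by
  have m := pin_mem hA h ha
  have o : ⟪pin p a ξ, (a - pin p a) ξ⟫_ℂ = 0 := by
    rw [adj hA ht h ha (sub_mem ha m), pin_sub, pin_rf hA h h (rf_self h), sub_self]
    simp
  have := norm_add_sq_eq_norm_sq_add_norm_sq_of_inner_eq_zero _ _ o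
  rw [← add_apply, add_sub_cancel] at this
  rw [sq, sq, sq, this]

theorem pin_le (hA : IsMasa A M) (ht : CV A M ξ) (h : IsPartition A p) (ha : a ∈ M) :
    ‖pin p a ξ‖ ≤ ‖a ξ‖ :=
  le_of_sq_le (norm_nonneg _) (by rw [pyth hA ht h ha]; exact le_add_of_nonneg_right (sq_nonneg _))

theorem lq (hA : IsMasa A M) (ht : CV A M ξ) (hz : z ∈ M) (hs : IsSelfAdjoint z)
    (hE : IsE A ξ z t) {η : ℝ} (hη : 0 < η) :
    ∃ (n : ℕ) (e : Fin n → H →L[ℂ] H), IsPartition A e ∧ ‖pin e (z - t) ξ‖ ≤ η := by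
  by_contra hh
  push Not at hh
  have tM := hA.1 _ hE.1
  have wM := sub_mem hz tM
  let S : Set ℝ := {x | ∃ (n : ℕ) (e : Fin n → H →L[ℂ] H), IsPartition A e ∧ ‖pin e (z - t) ξ‖ = x}
  have hne : S.Nonempty := ⟨_, 1, fun _ => 1, ⟨fun _ => ⟨one_mem A, .one _⟩,
    fun i j h => absurd (Subsingleton.elim i j) h, by simp⟩, rfl⟩
  have hlo : ∀ x ∈ S, η ≤ x := by
    rintro _ ⟨n, e, he, rfl⟩
    exact (hh n e he).le
  have hbd : BddBelow S := ⟨η, hlo⟩
  obtain ⟨ρ, -, hr, hrK⟩ := exists_seq_tendsto_sInf hne hbd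
  have c0 : η ≤ sInf S := le_csInf hne hlo
  have hm : ∀ (n : ℕ) (e : Fin n → H →L[ℂ] H), IsPartition A e → sInf S ≤ ‖pin e (z - t) ξ‖ :=
    fun n e he => csInf_le hbd ⟨n, e, he, rfl⟩
  generalize sInf S = c at hr c0 hm
  choose N P hP hPr using hrK
  have fix : ∀ {n : ℕ} {e : Fin n → H →L[ℂ] H}, IsPartition A e → ∀ b ∈ A, pin e b = b :=
    fun he b hb => pin_fix he fun i => hA.2.1 _ (he.1 i).1 _ hb
  let v : ℕ → P082.Alg M := fun n => ⟨pin (P n) z, pin_mem hA (hP n) hz⟩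
  have hb : ∀ n, ‖v n‖ ≤ ‖z‖ := fun n => pin_norm (hP n) hs
  obtain ⟨z0, hzd⟩ : ∃ z0, z0 = P082.wlim (hyperfilter ℕ) v := ⟨_, rfl⟩
  have hw : ∀ x y, Tendsto (fun n => ⟪y, pin (P n) z x⟫_ℂ) (hyperfilter ℕ) (𝓝 ⟪y, z0.1 x⟫_ℂ) :=
    fun x y => hzd ▸ P082.wlim_spec hb x y
  have zA : z0.1 ∈ A := by
    refine hA.mem_of_proj z0.2 fun E hEA pE => ?_
    have hR : IsPartition A ![E, 1 - E] := by
      refine ⟨fun i => ?_, fun i j hij => ?_, by simp⟩
      · fin_cases i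
        · exact ⟨hEA, pE⟩
        · exact ⟨sub_mem (one_mem A) hEA, pE.one_sub⟩
      · fin_cases i <;> fin_cases j <;> simp_all [mul_sub, sub_mul, pE.isIdempotentElem.eq]
    have k1 : ∀ y, Tendsto (fun n => ⟪y, (pin (P n) z - pin ![E, 1 - E] (pin (P n) z)) ξ⟫_ℂ)
        (hyperfilter ℕ) (𝓝 ⟪y, (z0.1 - pin ![E, 1 - E] z0.1) ξ⟫_ℂ) := by
      intro y
      have e : ∀ w : H →L[ℂ] H, ⟪y, (w - pin ![E, 1 - E] w) ξ⟫_ℂ = ⟪y, w ξ⟫_ℂ -
          (⟪star E y, w (E ξ)⟫_ℂ + ⟪star (1 - E) y, w ((1 - E) ξ)⟫_ℂ) := by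
        intro w
        rw [inner_star_left, inner_star_left, ← inner_add_right, ← inner_sub_right, pin,
          Fin.sum_univ_two]
        rfl
      simp only [e]
      exact (hw _ _).sub ((hw _ _).add (hw _ _))
    have k2 : Tendsto (fun n => (pin (P n) z - pin ![E, 1 - E] (pin (P n) z)) ξ) atTop (𝓝 0) := by
      rw [tendsto_zero_iff_norm_tendsto_zero]
      have k3 : Tendsto (fun n => √(ρ n ^ 2 - c ^ 2)) atTop (𝓝 0) := by
        have := ((hr.pow 2).sub_const (c ^ 2)).sqrt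
        rwa [sub_self, Real.sqrt_zero] at this
      refine squeeze_zero (fun _ => norm_nonneg _) (fun n => Real.le_sqrt_of_sq_le ?_) k3
      obtain ⟨Q, hQ, q1, -⟩ := prod_part hA (hP n) hR
      have a1 := pyth hA ht hR (pin_mem hA (hP n) wM)
      have a2 := pow_le_pow_left₀ (hη.le.trans c0) (hm _ Q hQ) 2
      rw [hPr n, ← q1] at a1
      rw [q1, pin_sub, fix (hP n) t hE.1, pin_sub, fix hR t hE.1, sub_sub_sub_cancel_right] at a1
      rw [q1, pin_sub, fix (hP n) t hE.1, pin_sub, fix hR t hE.1] at a2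
      linarith
    have k4 : (z0.1 - pin ![E, 1 - E] z0.1) ξ = 0 := by
      refine ext_inner_left ℂ fun y => ?_
      exact tendsto_nhds_unique (k1 y)
        (tendsto_const_nhds.inner (k2.mono_left Nat.hyperfilter_le_atTop))
    have k5 := sub_eq_zero.1 (ht.2.2 _ (sub_mem z0.2 (pin_mem hA hR z0.2)) k4)
    have k6 := blk hR 0 z0.1
    have k7 := blk' hR 0 z0.1
    rw [← k5] at k6 k7
    exact k6.trans k7.symm
  have zt : z0.1 ξ = t ξ := by
    have k : ∀ b ∈ A, ⟪ξ, (b * z0.1) ξ⟫_ℂ = ⟪ξ, (b * t) ξ⟫_ℂ := by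
      intro b hb
      have h1 := hw ξ (star b ξ)
      simp only [inner_star_left] at h1
      refine tendsto_nhds_unique h1 (tendsto_const_nhds.congr fun n => ?_)
      have := adj hA ht (hP n) (hA.1 _ (star_mem hb)) hz
      rw [fix (hP n) _ (star_mem hb), inner_star_left, inner_star_left] at this
      rw [hE.2 b hb]
      exact this
    have k2 := k _ (star_mem (sub_mem zA hE.1))
    have k3 := norm_sq_apply (z0.1 - t) ξ
    rw [mul_sub, sub_apply (star (z0.1 - t) * z0.1), inner_sub_right, k2,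
      sub_self, Complex.zero_re] at k3
    exact sub_eq_zero.1 (norm_eq_zero.1 (pow_eq_zero_iff two_ne_zero |>.1 k3))
  have k1 : ∀ n, c ^ 2 ≤ (⟪pin (P 0) (z - t) ξ, pin (P n) z ξ⟫_ℂ - ⟪pin (P 0) (z - t) ξ, t ξ⟫_ℂ).re := by
    intro n
    obtain ⟨Q, hQ, q1, -⟩ := prod_part hA (hP 0) (hP n)
    have a2 := pow_le_pow_left₀ (hη.le.trans c0) (hm _ Q hQ) 2
    have a3 : ⟪pin Q (z - t) ξ, pin Q (z - t) ξ⟫_ℂ =
        ⟪pin (P 0) (z - t) ξ, pin (P n) (z - t) ξ⟫_ℂ := by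
      rw [← adj hA ht hQ (pin_mem hA hQ wM) wM, pin_rf hA hQ hQ (rf_self hQ), q1,
        adj hA ht (hP n) (pin_mem hA (hP 0) wM) wM]
    rw [← inner_sub_right, ← sub_apply, ← fix (hP n) t hE.1, ← pin_sub,
      fix (hP n) t hE.1, ← a3]
    exact a2.trans_eq (inner_self_eq_norm_sq (𝕜 := ℂ) _).symm
  have k2 := (Complex.continuous_re.tendsto _).comp
    ((hw ξ (pin (P 0) (z - t) ξ)).sub_const ⟪pin (P 0) (z - t) ξ, t ξ⟫_ℂ)
  rw [zt, sub_self, Complex.zero_re] at k2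
  have k3 := ge_of_tendsto' k2 k1
  have := pow_pos (hη.trans_le c0) 2
  linarith

theorem one (hA : IsMasa A M) (ht : CV A M ξ) {y : H →L[ℂ] H} (hy : y ∈ M)
    (hn : NoAtom A ξ y) {η : ℝ} (hη : 0 < η) : ∃ (n : ℕ) (f : Fin n → H →L[ℂ] H),
      IsPartition A f ∧ ∃ (N : ℕ) (e : Fin N → H →L[ℂ] H), IsPartition A e ∧ Rf e f ∧
        ∑ l, ‖pin e (star y * f l * y) ξ‖ ^ 2 ≤ η := by
  obtain ⟨n, f, t, hf, hE, hs⟩ := hn (η / 4) (by positivity)
  have zM : ∀ l, star y * f l * y ∈ M := fun l =>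
    mul_mem (mul_mem (star_mem hy) (hA.1 _ (hf.1 l).1)) hy
  obtain ⟨κ, hκ⟩ : ∃ κ, κ = √(η / (4 * (n + 1))) := ⟨_, rfl⟩
  have κ0 : 0 < κ := hκ ▸ Real.sqrt_pos.2 (by positivity)
  have κ1 : κ ^ 2 = η / (4 * (n + 1)) := hκ ▸ Real.sq_sqrt (by positivity)
  obtain ⟨N, e, he, h⟩ := all hA (fun l _ e => ‖pin e (star y * f l * y - t l) ξ‖ ≤ κ)
    (fun l => lq hA ht (zM l) ((hf.1 l).2.isSelfAdjoint.conjugate' y) (hE l) κ0)
    (fun l _ e _ e' he he' hr h => by
      rw [← pin_rf hA he' he hr]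
      exact (pin_le hA ht he' (pin_mem hA he (sub_mem (zM l) (hA.1 _ (hE l).1)))).trans h)
  obtain ⟨P, hP, r1, r2⟩ := prod_rf hA he hf
  refine ⟨n, f, hf, _, P, hP, r2, ?_⟩
  have k : ∀ l, ‖pin P (star y * f l * y) ξ‖ ^ 2 ≤ 2 * ‖t l ξ‖ ^ 2 + 2 * κ ^ 2 := by
    intro l
    rw [← pin_rf hA hP he r1]
    have a1 := pin_le hA ht hP (pin_mem hA he (zM l))
    have a2 := h l
    rw [pin_sub, pin_fix he (z := t l) fun i => hA.2.1 _ (he.1 i).1 _ (hE l).1,
      sub_apply] at a2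
    have a3 := norm_le_insert' (pin e (star y * f l * y) ξ) (t l ξ)
    have a4 := pow_le_pow_left₀ (norm_nonneg _) (a1.trans (a3.trans (add_le_add_right a2 _))) 2
    nlinarith [sq_nonneg (‖t l ξ‖ - κ)]
  refine (sum_le_sum fun l _ => k l).trans ?_
  rw [sum_add_distrib, ← mul_sum, sum_const, card_univ, Fintype.card_fin, nsmul_eq_mul, κ1]
  have : (n : ℝ) * (2 * (η / (4 * (n + 1)))) ≤ η / 2 := by
    rw [← mul_div_assoc, ← mul_div_assoc, div_le_iff₀ (by positivity)]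
    nlinarith
  linarith

theorem cutF (hA : IsMasa A M) (ht : CV A M ξ) {ι : Type} [Fintype ι] (y : ι → H →L[ℂ] H)
    (hy : ∀ i, y i ∈ M) (hn : ∀ i, NoAtom A ξ (y i)) {ε : ℝ} (hε : 0 < ε) :
    ∃ (N : ℕ) (e : Fin N → H →L[ℂ] H), IsPartition A e ∧ ∃ q ∈ M, IsStarProjection q ∧
      (∀ a, e a * q = q * e a) ∧ ‖(1 - q) ξ‖ ≤ ε ∧ ∀ i a b, ‖e a * y i * e b * q‖ ≤ ε := by
  have η0 : 0 < ε ^ 6 / (Fintype.card ι + 1) := by positivity
  choose n f hf N0 e0 he0 hr0 hs0 using fun i => one hA ht (hy i) (hn i) η0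
  have zM : ∀ i l, star (y i) * f i l * y i ∈ M := fun i l =>
    mul_mem (mul_mem (star_mem (hy i)) (hA.1 _ ((hf i).1 l).1)) (hy i)
  obtain ⟨N, e, he, h⟩ := all hA (fun i _ e => Rf e (f i) ∧
      ∑ l, ‖pin e (star (y i) * f i l * y i) ξ‖ ^ 2 ≤ ε ^ 6 / (Fintype.card ι + 1))
    (fun i => ⟨_, _, he0 i, hr0 i, hs0 i⟩)
    (fun i _ e _ e' he he' hr h => ⟨hr.trans h.1, (sum_le_sum fun l _ => by
      rw [← pin_rf hA he' he hr]
      exact pow_le_pow_left₀ (norm_nonneg _) (pin_le hA ht he' (pin_mem hA he (zM i l))) 2).trans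
        h.2⟩)
  obtain ⟨x, hx⟩ : ∃ x : (i : ι) → Fin (n i) → H →L[ℂ] H,
    x = fun i l => pin e (star (y i) * f i l * y i) := ⟨_, rfl⟩
  have xM : ∀ i l, x i l ∈ M := fun i l => hx ▸ pin_mem hA he (zM i l)
  have xc : ∀ a i l, Commute (e a) (x i l) := fun a i l => by
    rw [hx]
    exact (blk he a _).trans (blk' he a _).symm
  obtain ⟨W, hW⟩ : ∃ W, W = ∑ i, ∑ l, star (x i l) * x i l := ⟨_, rfl⟩
  have W0 : 0 ≤ W := hW ▸ sum_nonneg fun i _ => sum_nonneg fun l _ => star_mul_self_nonneg _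
  have WM : W ∈ M := hW ▸ sum_mem fun i _ => sum_mem fun l _ => mul_mem (star_mem (xM i l)) (xM i l)
  have Wx : ∀ i l, star (x i l) * x i l ≤ W := fun i l => by
    rw [hW]
    exact (single_le_sum (f := fun l => star (x i l) * x i l)
      (fun l _ => star_mul_self_nonneg _) (mem_univ l)).trans
      (single_le_sum (f := fun i => ∑ l, star (x i l) * x i l)
        (fun i _ => sum_nonneg fun l _ => star_mul_self_nonneg _) (mem_univ i))
  have Wc : ∀ a, Commute (e a) W := fun a => by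
    rw [hW]
    refine Commute.sum_right _ _ _ fun i _ => Commute.sum_right _ _ _ fun l _ =>
      Commute.mul_right ?_ (xc a i l)
    have := (xc a i l).star_star
    rwa [(he.1 a).2.isSelfAdjoint.star_eq] at this
  have Wt : (⟪ξ, W ξ⟫_ℂ).re ≤ ε ^ 4 * ε ^ 2 := by
    have : (⟪ξ, W ξ⟫_ℂ).re = ∑ i, ∑ l, ‖x i l ξ‖ ^ 2 := by
      simp only [hW, _root_.sum_apply, inner_sum, Complex.re_sum, norm_sq_apply]
    rw [this, hx]
    refine (sum_le_sum fun i _ => (h i).2).trans ?_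
    rw [sum_const, card_univ, nsmul_eq_mul, ← mul_div_assoc, div_le_iff₀ (by positivity)]
    have : 0 < ε ^ 6 := by positivity
    nlinarith
  have hη : 0 < ε ^ 4 := by positivity
  obtain ⟨E, eM, e1, ec, e2, e3⟩ := spec' M (t := W - ((ε ^ 4 : ℝ) : ℂ) • 1)
    (sub_mem WM (vn_smul_mem _ (one_mem _)))
    (W0.isSelfAdjoint.sub ((show IsSelfAdjoint ((ε ^ 4 : ℝ) : ℂ) from Complex.conj_ofReal _).smul
      (.one _)))
  obtain ⟨q, hq⟩ : ∃ q, q = 1 - E := ⟨_, rfl⟩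
  have qM : q ∈ M := hq ▸ sub_mem (one_mem _) eM
  have q1 : IsStarProjection q := hq ▸ e1.one_sub
  rw [← hq] at e3
  have qc : ∀ a, e a * q = q * e a := fun a => by
    rw [hq]
    exact ((Commute.one_right _).sub_right (ec _ (he.1 a).2.isSelfAdjoint
      ((Wc a).sub_right ((Commute.one_right _).smul_right _)))).eq
  refine ⟨N, e, he, q, qM, q1, qc, ?_, fun i a b => ?_⟩
  · rw [hq, sub_sub_cancel]
    have t1 := re_nonneg (ξ := ξ) e2
    have t2 := re_nonneg (ξ := ξ) (q1.isSelfAdjoint.conjugate_nonneg W0)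
    have t3 : ⟪ξ, (E * W * E) ξ⟫_ℂ + ⟪ξ, (q * W * q) ξ⟫_ℂ = ⟪ξ, W ξ⟫_ℂ := by
      have cW : Commute W E := ec W W0.isSelfAdjoint
        ((Commute.refl _).sub_right ((Commute.one_right _).smul_right _))
      have : E * W * E + q * W * q = W := by
        have k : E * W * E = W * E := by rw [← cW.eq, mul_assoc, e1.isIdempotentElem.eq]
        rw [hq, show (1 - E) * W * (1 - E) = W - E * W - W * E + E * W * E by noncomm_ring, k,
          ← cW.eq]
        abel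
      rw [← inner_add_right, ← add_apply, this]
    have t4 := congrArg Complex.re t3
    have t5 := norm_sq_apply E ξ
    rw [e1.isSelfAdjoint.star_eq] at t5
    rw [mul_sub, sub_mul, mul_smul_comm, smul_mul_assoc, mul_one, sub_apply,
      inner_sub_right, smul_apply, inner_smul_right, Complex.sub_re,
      Complex.re_ofReal_mul, ← t5] at t1
    rw [Complex.add_re] at t4
    exact le_of_sq_le hε.le (le_of_mul_le_mul_left (by linarith) hη)
  · obtain ⟨l, hl⟩ := (h i).1 a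
    have k1 : ‖x i l * q‖ ≤ ε ^ 2 := by
      refine le_of_sq_le (by positivity) ?_
      rw [sq, ← CStarRing.norm_star_mul_self]
      refine (CStarAlgebra.norm_le_iff_le_algebraMap _ (by positivity)
        (star_mul_self_nonneg _)).2 ?_
      have a1 := q1.isSelfAdjoint.conjugate_le_conjugate (Wx i l)
      have a2 : q * W * q = ((ε ^ 4 : ℝ) : ℂ) • 1 - ((ε ^ 4 : ℝ) : ℂ) • (1 - q) +
          q * (W - ((ε ^ 4 : ℝ) : ℂ) • 1) * q := by
        simp only [mul_sub, sub_mul, mul_smul_comm, smul_mul_assoc, mul_one,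
          q1.isIdempotentElem.eq]
        module
      have a3 : q * W * q ≤ ((ε ^ 4 : ℝ) : ℂ) • 1 := by
        rw [a2]
        exact (add_le_of_nonpos_right e3).trans (sub_le_self _ (smul_nn hη.le q1.one_sub.nonneg))
      rw [star_mul, q1.isSelfAdjoint.star_eq, Algebra.algebraMap_eq_smul_one, ← Complex.coe_smul,
        ← pow_mul]
      refine le_trans (le_of_eq ?_) (a1.trans a3)
      simp only [mul_assoc]
    have pf := ((hf i).1 l).2
    have k2 : ‖f i l * y i * e b * q‖ ≤ ε := by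
      refine le_of_sq_le hε.le ?_
      rw [sq, ← CStarRing.norm_star_mul_self]
      have : star (f i l * y i * e b * q) * (f i l * y i * e b * q) = q * e b * (x i l * q) := by
        have : e b * x i l = e b * (star (y i) * f i l * y i) * e b := by
          rw [hx]
          exact blk he b _
        rw [star_mul, star_mul, star_mul, q1.isSelfAdjoint.star_eq, pf.isSelfAdjoint.star_eq,
          (he.1 b).2.isSelfAdjoint.star_eq, mul_assoc q (e b), ← mul_assoc (e b) (x i l), this]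
        conv_rhs => rw [← pf.isIdempotentElem.eq]
        simp only [mul_assoc]
      rw [this]
      have a1 := norm_mul_le (q * e b) (x i l * q)
      have a2 : ‖q * e b‖ ≤ 1 := (norm_mul_le _ _).trans
        (mul_le_one₀ q1.norm_le (norm_nonneg _) (he.1 b).2.norm_le)
      have a3 := mul_le_mul_of_nonneg_right a2 (norm_nonneg (x i l * q))
      linarith
    have : e a * y i * e b * q = e a * (f i l * y i * e b * q) := by
      conv_lhs => rw [← hl]
      simp only [mul_assoc]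
    rw [this]
    exact (norm_mul_le _ _).trans
      ((mul_le_of_le_one_left (norm_nonneg _) (he.1 a).2.norm_le).trans k2)

end NT

end Vale.Agent.P078
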